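import Vale.Agent.P245W48.St

/-!
# P245: linear images of admissible measures and the anisotropic inequality
-/

namespace Vale.Agent.N245

open MeasureTheory Vale.Agent.P245W Set
open scoped ContDiff ENNReal

variable {n : ℕ}

theorem map_withDensity {α β : Type*} [MeasurableSpace α] [MeasurableSpace β] (m : Measure α)
    (e : α ≃ᵐ β) (g : α → ℝ≥0∞) :
    (m.withDensity g).map e = (m.map e).withDensity fun y => g (e.symm y) := by
  ext s hs
  rw [Measure.map_apply e.measurable hs, withDensity_apply _ (e.measurable hs),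
    withDensity_apply _ hs, e.restrict_map, lintegral_map_equiv]
  simp

theorem adm_map {μ : Measure (Eu n)} (h : Admissible μ) (T : Eu n ≃L[ℝ] Eu n) :
    Admissible (μ.map T.toHomeomorph.toMeasurableEquiv) := by
  have := h.prob
  set e := T.toHomeomorph.toMeasurableEquiv with he
  refine ⟨Measure.isProbabilityMeasure_map e.measurable.aemeasurable, ?_, ?_, ?_⟩
  · obtain ⟨ρ, h0, ⟨h1, h2⟩, h3⟩ := h.density
    have hd : LinearMap.det (T.toLinearEquiv : Eu n →ₗ[ℝ] Eu n) ≠ 0 :=
      T.toLinearEquiv.isUnit_det'.ne_zero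
    set c := |(LinearMap.det (T.toLinearEquiv : Eu n →ₗ[ℝ] Eu n))⁻¹| with hc
    have hc0 : 0 < c := abs_pos.2 (inv_ne_zero hd)
    have hs : {y | 0 < c * ρ (T.symm y)} =
        (T.symm.toLinearEquiv : Eu n →ₗ[ℝ] Eu n) ⁻¹' {x | 0 < ρ x} := by
      ext y
      exact mul_pos_iff_of_pos_left hc0
    refine ⟨fun y => c * ρ (T.symm y), fun y => mul_nonneg hc0.le (h0 _), ⟨?_, ?_⟩, ?_⟩
    · rw [hs]
      exact h1.linear_preimage _
    · rw [hs]
      refine ((h2.comp_linearMap _).add_const (Real.log c)).congr fun y hy => ?_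
      have : 0 < ρ (T.symm y) := hy
      change Real.log (ρ (T.symm y)) + Real.log c = Real.log (c * ρ (T.symm y))
      rw [Real.log_mul hc0.ne' this.ne', add_comm]
    · have k : (volume : Measure (Eu n)).map e = ENNReal.ofReal c • volume :=
        Measure.map_linearMap_addHaar_eq_smul_addHaar volume hd
      rw [h3, map_withDensity, k, withDensity_smul_measure,
        ← withDensity_smul' _ _ ENNReal.ofReal_ne_top]
      congr 1
      ext y
      rw [ENNReal.ofReal_mul hc0.le]
      rfl
  · rw [integrable_map_equiv]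
    exact (T : Eu n →L[ℝ] Eu n).integrable_comp h.integrable
  · rw [integral_map_equiv]
    have := T.integral_comp_comm (μ := μ) fun x => x
    rw [h.centered, map_zero] at this
    exact this

/-- the adjoint of an invertible linear map. -/
noncomputable def adj (S : Eu n ≃L[ℝ] Eu n) : Eu n ≃L[ℝ] Eu n :=
  ContinuousLinearEquiv.equivOfInverse (ContinuousLinearMap.adjoint (S : Eu n →L[ℝ] Eu n))
    (ContinuousLinearMap.adjoint (S.symm : Eu n →L[ℝ] Eu n))
    (fun x => ext_inner_right ℝ fun y => by simp [ContinuousLinearMap.adjoint_inner_left])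
    (fun x => ext_inner_right ℝ fun y => by simp [ContinuousLinearMap.adjoint_inner_left])

theorem adj_inner (S : Eu n ≃L[ℝ] Eu n) (x y : Eu n) : inner ℝ (adj S x) y = inner ℝ x (S y) :=
  ContinuousLinearMap.adjoint_inner_left (S : Eu n →L[ℝ] Eu n) y x

theorem grad_adj (S : Eu n ≃L[ℝ] Eu n) (f : Eu n → ℝ) (y : Eu n) :
    gradient (f ∘ adj S) y = S (gradient f (adj S y)) := by
  refine ext_inner_right ℝ fun v => ?_
  rw [real_inner_comm v (S _), ← adj_inner, real_inner_comm _ (adj S v), gradient, gradient,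
    InnerProductSpace.toDual_symm_apply, InnerProductSpace.toDual_symm_apply,
    (adj S).comp_right_fderiv]
  rfl

theorem aniso {C : ℝ} (H : ∀ μ : Measure (Eu n), Admissible μ → Subgaussian μ 1 →
      ∀ f : Eu n → ℝ, ContDiff ℝ ∞ f → HasCompactSupport f →
        Ent μ (fun x => f x ^ 2) ≤ C * 1 ^ 2 * ∫ x, ‖gradient f x‖ ^ 2 ∂μ)
    {μ : Measure (Eu n)} (h : Admissible μ) (S : Eu n ≃L[ℝ] Eu n)
    (hS : ∀ θ, ‖S θ‖ = 1 → ∫⁻ x, ENNReal.ofReal (Real.exp (inner ℝ x θ ^ 2)) ∂μ ≤ 2)
    {f : Eu n → ℝ} (hf : ContDiff ℝ ∞ f) (hc : HasCompactSupport f) :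
    Ent μ (fun x => f x ^ 2) ≤ C * ∫ x, ‖S (gradient f x)‖ ^ 2 ∂μ := by
  have k := H _ (adm_map h (adj S).symm) (iSup_le fun θ => ?_) (f ∘ adj S)
    (hf.comp (adj S).contDiff) (hc.comp_homeomorph (adj S).toHomeomorph)
  · simp only [Ent, integral_map_equiv, grad_adj] at k ⊢
    simpa using k
  · rw [lintegral_map_equiv]
    refine le_trans (le_of_eq (lintegral_congr fun x => ?_))
      (hS (S.symm θ.1) (by simp))
    have := adj_inner S ((adj S).symm x) (S.symm θ.1)
    rw [ContinuousLinearEquiv.apply_symm_apply, ContinuousLinearEquiv.apply_symm_apply] at this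
    rw [this, one_pow, div_one]
    rfl

end Vale.Agent.N245
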