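import Vale.Agent.N245.Herbst

/-!
# P245: consequences of a subgaussian Laplace transform
-/

namespace Vale.Agent.N245

open MeasureTheory ProbabilityTheory InformationTheory Real Filter Topology Set
open scoped ContDiff ENNReal NNReal

theorem lint_gauss {b : ℝ} (hb : 0 < b) (x : ℝ) :
    ∫⁻ s : ℝ, ENNReal.ofReal (exp (-b * s ^ 2)) * ENNReal.ofReal (exp (s * x)) =
      ENNReal.ofReal (exp (x ^ 2 / (4 * b))) * ENNReal.ofReal (√(π / b)) := by
  have e : ∀ s : ℝ, ENNReal.ofReal (exp (-b * s ^ 2)) * ENNReal.ofReal (exp (s * x)) =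
      ENNReal.ofReal (exp (x ^ 2 / (4 * b))) *
        (fun s : ℝ => ENNReal.ofReal (exp (-b * s ^ 2))) (s - x / (2 * b)) := fun s => by
    rw [← ENNReal.ofReal_mul (exp_pos _).le, ← ENNReal.ofReal_mul (exp_pos _).le, ← exp_add,
      ← exp_add]
    congr 2
    field_simp
    ring
  simp_rw [e]
  rw [lintegral_const_mul' _ _ ENNReal.ofReal_ne_top,
    lintegral_sub_right_eq_self (fun s : ℝ => ENNReal.ofReal (exp (-b * s ^ 2))),
    ← ofReal_integral_eq_lintegral_ofReal (integrable_exp_neg_mul_sq hb)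
      (Eventually.of_forall fun s => (exp_pos _).le), integral_gaussian]

section

variable {Ω : Type*} [MeasurableSpace Ω] {μ : Measure Ω} [IsProbabilityMeasure μ] {X : Ω → ℝ}
  {c : ℝ≥0}

/-- a subgaussian Laplace transform gives a bound on the exponential of the square, with the
constant that is optimal for the normal law. -/
theorem sq_exp (h : HasSubgaussianMGF X c μ) (hX : Measurable X) {A : ℝ} (hA : 0 < A)
    (hc : 8 * (c : ℝ) ≤ 3 * A) : ∫⁻ w, ENNReal.ofReal (exp (X w ^ 2 / A)) ∂μ ≤ 2 := by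
  have hc0 : (0 : ℝ) ≤ c := c.2
  have hb : 0 < A / 4 := by positivity
  have hb' : 0 < A / 4 - c / 2 := by linarith
  have hq : 0 < √(π / (A / 4)) := sqrt_pos.2 (div_pos pi_pos hb)
  rw [← ENNReal.mul_le_mul_iff_left (c := ENNReal.ofReal (√(π / (A / 4)))) 
    (ENNReal.ofReal_pos.2 hq).ne'
    ENNReal.ofReal_ne_top, ← lintegral_mul_const' _ _ ENNReal.ofReal_ne_top]
  have e : ∀ w, ENNReal.ofReal (exp (X w ^ 2 / A)) * ENNReal.ofReal (√(π / (A / 4))) =
      ∫⁻ s : ℝ, ENNReal.ofReal (exp (-(A / 4) * s ^ 2)) * ENNReal.ofReal (exp (s * X w)) :=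
    fun w => by rw [lint_gauss hb, mul_div_cancel₀ A four_ne_zero]
  simp_rw [e]
  rw [lintegral_lintegral_swap (by fun_prop)]
  calc ∫⁻ s : ℝ, ∫⁻ w, ENNReal.ofReal (exp (-(A / 4) * s ^ 2)) *
        ENNReal.ofReal (exp (s * X w)) ∂μ
      ≤ ∫⁻ s : ℝ, ENNReal.ofReal (exp (-(A / 4 - c / 2) * s ^ 2)) *
        ENNReal.ofReal (exp (s * 0)) := lintegral_mono fun s => by
        rw [lintegral_const_mul' _ _ ENNReal.ofReal_ne_top,
          ← ofReal_integral_eq_lintegral_ofReal (h.integrable_exp_mul s)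
            (Eventually.of_forall fun s => (exp_pos _).le),
          ← ENNReal.ofReal_mul (exp_pos _).le, ← ENNReal.ofReal_mul (exp_pos _).le]
        refine ENNReal.ofReal_le_ofReal
          ((mul_le_mul_of_nonneg_left (h.mgf_le s) (exp_pos _).le).trans (le_of_eq ?_))
        rw [← exp_add, ← exp_add]
        congr 1
        ring
    _ ≤ _ := by
        rw [lint_gauss hb', ← ENNReal.ofReal_mul (exp_pos _).le, ← ENNReal.ofReal_ofNat 2,
          ← ENNReal.ofReal_mul zero_le_two]
        refine ENNReal.ofReal_le_ofReal ?_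
        rw [show (0 : ℝ) ^ 2 / (4 * (A / 4 - c / 2)) = 0 by simp, exp_zero, one_mul]
        refine sqrt_le_iff.2 ⟨by positivity, ?_⟩
        rw [mul_pow, sq_sqrt (div_pos pi_pos hb).le, div_le_iff₀ hb']
        have : 2 ^ 2 * (π / (A / 4)) * (A / 4 - c / 2) = π * ((4 * A - 8 * c) / A) := by
          field_simp
          ring
        rw [this]
        exact le_mul_of_one_le_right pi_pos.le ((one_le_div hA).2 (by linarith))

/-- the transport-entropy inequality in its dual form. -/
theorem transport (h : HasSubgaussianMGF X c μ) (hc : 0 < c) (ν : Measure Ω)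
    [IsProbabilityMeasure ν] (hi : Integrable X ν) :
    ENNReal.ofReal ((∫ w, X w ∂ν) ^ 2) ≤ ENNReal.ofReal (2 * c) * klDiv ν μ := by
  have hc' : (0 : ℝ) < c := hc
  by_cases ht : klDiv ν μ = ⊤
  · rw [ht, ENNReal.mul_top (ENNReal.ofReal_pos.2 (by positivity)).ne']
    exact le_top
  obtain ⟨h1, h2⟩ := klDiv_ne_top_iff.1 ht
  set m := ∫ w, X w ∂ν with hm
  have h3 := h.integrable_exp_mul (m / c)
  have : IsProbabilityMeasure (μ.tilted fun w => m / c * X w) := isProbabilityMeasure_tilted h3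
  have h4 := integral_llr_add_sub_measure_univ_nonneg
    (h1.trans (absolutelyContinuous_tilted h3))
    (integrable_llr_tilted_right h1 (hi.const_mul (m / c)) h2 h3)
  rw [integral_llr_tilted_right h1 (hi.const_mul (m / c)) h3 h2, integral_const_mul] at h4
  have h5 : log (∫ w, exp (m / c * X w) ∂μ) ≤ c * (m / c) ^ 2 / 2 := h.cgf_le _
  rw [klDiv_of_ac_of_integrable h1 h2, ← ENNReal.ofReal_mul (by positivity)]
  refine ENNReal.ofReal_le_ofReal ?_
  simp only [probReal_univ, add_sub_cancel_right] at h4 ⊢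
  have h6 : m / c * m - c * (m / c) ^ 2 / 2 = m ^ 2 / (2 * c) := by
    field_simp
    ring
  rw [← div_le_iff₀' (by positivity)]
  linarith

/-- two sets on which `X` is separated by `d`. -/
theorem two_sets (h : HasSubgaussianMGF X c μ) (hc : 0 < c) {A B : Set Ω} {u d : ℝ} (hd : 0 ≤ d)
    (hA : ∀ w ∈ A, X w ≤ u) (hB : ∀ w ∈ B, u + d ≤ X w) :
    μ.real A * μ.real B ≤ exp (-d ^ 2 / (4 * c)) := by
  have hc' : (0 : ℝ) < c := hc
  have ht : 0 ≤ d / (2 * c) := by positivity
  have h1 := (measureReal_mono (μ := μ) (s₂ := {w | X w ≤ u}) hA (measure_ne_top _ _)).trans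
    ((measure_le_le_exp_mul_mgf u (neg_nonpos.2 ht) (h.integrable_exp_mul _)).trans
      (mul_le_mul_of_nonneg_left (h.mgf_le _) (exp_pos _).le))
  have h2 := (measureReal_mono (μ := μ) (s₂ := {w | u + d ≤ X w}) hB (measure_ne_top _ _)).trans
    ((measure_ge_le_exp_mul_mgf (u + d) ht (h.integrable_exp_mul _)).trans
      (mul_le_mul_of_nonneg_left (h.mgf_le _) (exp_pos _).le))
  refine (mul_le_mul h1 h2 measureReal_nonneg (by positivity)).trans (le_of_eq ?_)
  rw [← exp_add, ← exp_add, ← exp_add]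
  congr 1
  field_simp
  ring

end

variable {n : ℕ} {μ : Measure (EuclideanSpace ℝ (Fin n))} [IsProbabilityMeasure μ] {D : ℝ}

theorem lip_int (hi : Integrable id μ) {F : EuclideanSpace ℝ (Fin n) → ℝ}
    (hL : LipschitzWith 1 F) : Integrable F μ := by
  refine ((integrable_const |F 0|).add hi.norm).mono' hL.continuous.aestronglyMeasurable
    (Eventually.of_forall fun x => ?_)
  have := hL.dist_le_mul x 0
  rw [Real.dist_eq, dist_zero_right, NNReal.coe_one, one_mul] at this
  have h2 := abs_sub_abs_le_abs_sub (F x) (F 0)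
  simp only [Real.norm_eq_abs, Pi.add_apply, id]
  linarith

theorem LS.all (h : LS μ D) (hD : 0 < D) (hi : Integrable id μ) :
    (∀ F : EuclideanSpace ℝ (Fin n) → ℝ, LipschitzWith 1 F → Integrable F μ ∧
      ∫⁻ x, ENNReal.ofReal (exp ((F x - ∫ y, F y ∂μ) ^ 2 / (4 / 3 * D))) ∂μ ≤ 2 ∧
      (∀ t : ℝ, ∫⁻ x, ENNReal.ofReal (exp (t * (F x - ∫ y, F y ∂μ))) ∂μ ≤
        ENNReal.ofReal (exp (D * t ^ 2 / 4))) ∧
      (∀ r, 0 ≤ r → μ.real {x | r ≤ F x - ∫ y, F y ∂μ} ≤ exp (-r ^ 2 / D)) ∧
      ∀ ν : Measure (EuclideanSpace ℝ (Fin n)), IsProbabilityMeasure ν → Integrable F ν →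
        ENNReal.ofReal ((∫ x, F x ∂ν - ∫ x, F x ∂μ) ^ 2) ≤ ENNReal.ofReal D * klDiv ν μ) ∧
    ∀ (A B : Set (EuclideanSpace ℝ (Fin n))) (d : ℝ), 0 ≤ d → (∀ x ∈ A, ∀ y ∈ B, d ≤ dist x y) →
      μ.real A * μ.real B ≤ exp (-d ^ 2 / (2 * D)) := by
  have hc : ((D / 2).toNNReal : ℝ) = D / 2 := Real.coe_toNNReal _ (by positivity)
  have hc0 : 0 < (D / 2).toNNReal := Real.toNNReal_pos.2 (by positivity)
  refine ⟨fun F hL => ?_, fun A B d hd hAB => ?_⟩
  · have k := h.subgaussian hD.le hL (lip_int hi hL)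
    refine ⟨lip_int hi hL, sq_exp k (A := 4 / 3 * D) (hL.continuous.measurable.sub_const _)
      (by positivity) (by rw [hc]; linarith), fun t => ?_, fun r hr => ?_, fun ν _ hν => ?_⟩
    · rw [← ofReal_integral_eq_lintegral_ofReal (k.integrable_exp_mul t)
        (Eventually.of_forall fun s => (exp_pos _).le)]
      refine ENNReal.ofReal_le_ofReal ((k.mgf_le t).trans (le_of_eq ?_))
      rw [hc]
      congr 1
      ring
    · have := k.measure_ge_le hr
      rwa [hc, mul_div_cancel₀ D two_ne_zero] at this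
    · have := transport k hc0 ν (hν.sub (integrable_const _))
      rwa [hc, mul_div_cancel₀ D two_ne_zero, integral_sub hν (integrable_const _), integral_const,
        probReal_univ, one_smul] at this
  · rcases A.eq_empty_or_nonempty with rfl | hA
    · rw [measureReal_empty, zero_mul]
      exact (exp_pos _).le
    have hL := Metric.lipschitz_infDist_pt A
    have := two_sets (h.subgaussian hD.le hL (lip_int hi hL)) hc0 (A := A) (B := B)
      (u := -∫ y, Metric.infDist y A ∂μ) hd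
      (fun x hx => by rw [Metric.infDist_zero_of_mem hx, zero_sub])
      (fun y hy => by
        have : d ≤ Metric.infDist y A :=
          (Metric.le_infDist hA).2 fun x hx => by rw [dist_comm]; exact hAB x hx y hy
        linarith)
    rwa [hc, show 4 * (D / 2) = 2 * D by ring] at this

end Vale.Agent.N245
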