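import Vale.Agent.N245.Top
import Vale.Agent.P245.Bdl.B2

/-!
# P245: the standard Gaussian measure attains the constant three quarters
-/

namespace Vale.Agent.N245

open MeasureTheory ProbabilityTheory Vale.Agent.P245W Vale.Agent.P245 Set Real Filter
open scoped ContDiff ENNReal

variable {n : ℕ}

theorem sq_exp_ge {Ω : Type*} [MeasurableSpace Ω] {μ : Measure Ω} [IsProbabilityMeasure μ]
    {X : Ω → ℝ} (hX : Measurable X)
    (h : ∀ s : ℝ, ∫⁻ w, ENNReal.ofReal (exp (s * X w)) ∂μ = ENNReal.ofReal (exp (s ^ 2 / 2)))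
    {A : ℝ} (hA : 0 < A) (h2 : ∫⁻ w, ENNReal.ofReal (exp (X w ^ 2 / A)) ∂μ ≤ 2) : 8 / 3 ≤ A := by
  have hb : 0 < A / 4 := by positivity
  have h3 := mul_le_mul_left h2 (ENNReal.ofReal (√(π / (A / 4))))
  rw [← lintegral_mul_const' _ _ ENNReal.ofReal_ne_top] at h3
  have e : ∀ w, ENNReal.ofReal (exp (X w ^ 2 / A)) * ENNReal.ofReal (√(π / (A / 4))) =
      ∫⁻ s : ℝ, ENNReal.ofReal (exp (-(A / 4) * s ^ 2)) * ENNReal.ofReal (exp (s * X w)) :=
    fun w => by rw [lint_gauss hb, mul_div_cancel₀ A four_ne_zero]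
  simp_rw [e] at h3
  rw [lintegral_lintegral_swap (by fun_prop)] at h3
  have e2 : ∀ s : ℝ, ∫⁻ w, ENNReal.ofReal (exp (-(A / 4) * s ^ 2)) *
      ENNReal.ofReal (exp (s * X w)) ∂μ = ENNReal.ofReal (exp (-(A / 4 - 1 / 2) * s ^ 2)) :=
    fun s => by
      rw [lintegral_const_mul' _ _ ENNReal.ofReal_ne_top, h, ← ENNReal.ofReal_mul (exp_pos _).le,
        ← exp_add]
      congr 2
      ring
  simp_rw [e2] at h3
  rw [← ENNReal.ofReal_ofNat 2, ← ENNReal.ofReal_mul zero_le_two] at h3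
  by_cases hb' : 0 < A / 4 - 1 / 2
  · rw [← ofReal_integral_eq_lintegral_ofReal (integrable_exp_neg_mul_sq hb')
      (Eventually.of_forall fun s => (exp_pos _).le), integral_gaussian,
      ENNReal.ofReal_le_ofReal_iff (by positivity), sqrt_le_iff, mul_pow,
      sq_sqrt (div_pos pi_pos hb).le, div_le_iff₀ hb'] at h3
    have e3 : 2 ^ 2 * (π / (A / 4)) * (A / 4 - 1 / 2) = π * ((4 * A - 8) / A) := by
      field_simp
      ring
    have h4 := h3.2
    rw [e3, le_mul_iff_one_le_right pi_pos, one_le_div hA] at h4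
    linarith
  · have h4 : ∫⁻ _ : ℝ, (1 : ℝ≥0∞) ≤ ∫⁻ s : ℝ, ENNReal.ofReal (exp (-(A / 4 - 1 / 2) * s ^ 2)) :=
      lintegral_mono fun s => ENNReal.one_le_ofReal.2
        (one_le_exp (mul_nonneg (by linarith) (sq_nonneg s)))
    have := (h4.trans h3).trans_lt ENNReal.ofReal_lt_top
    simp at this

/-- the standard Gaussian measure. -/
noncomputable def gE (n : ℕ) : Measure (Eu n) :=
  (gsn n).map (MeasurableEquiv.toLp 2 (Fin n → ℝ))

theorem gE_adm : Admissible (gE n) := by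
  have hi : Integrable id (gE n) := by
    rw [gE, integrable_map_equiv]
    exact ((EuclideanSpace.equiv (Fin n) ℝ).symm : (Fin n → ℝ) →L[ℝ] Eu n).integrable_comp
      (φ := fun z => z) (integrable_pi_iff.2 fun i => (EG1.coord i).int (continuous_apply i))
  refine ⟨Measure.isProbabilityMeasure_map (MeasurableEquiv.measurable _).aemeasurable,
    ⟨fun x => gd x.ofLp, fun x => (gd_pos _).le, ?_, ?_⟩, hi, ?_⟩
  · have e : {x : Eu n | 0 < gd x.ofLp} = univ := eq_univ_of_forall fun x => gd_pos _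
    rw [LogConcave, e]
    refine ⟨convex_univ, ?_⟩
    have c := ((convexOn_univ_norm (E := Eu n)).pow (fun _ _ => norm_nonneg _) 2).smul
      (c := (1 / 2 : ℝ)) (by norm_num)
    refine (c.neg.add_const (log ((√(2 * π))⁻¹ ^ n))).congr fun x _ => ?_
    have : 0 < √(2 * π) := sqrt_pos.2 (by positivity)
    simp only [gd_eq]
    rw [log_mul (by positivity) (exp_pos _).ne', log_exp, ← EuclideanSpace.real_norm_sq_eq]
    simp only [Pi.add_apply, Pi.neg_apply, Pi.pow_apply, smul_eq_mul]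
    ring
  · rw [gE, gsn, map_withDensity]
    congr 1
    exact (PiLp.volume_preserving_toLp (Fin n)).map_eq
  · ext i
    have := (EuclideanSpace.proj (𝕜 := ℝ) i).integral_comp_comm hi
    refine this.symm.trans ?_
    rw [gE, integral_map_equiv]
    exact gauss_mean i

theorem gE_ls : LS (gE n) 2 := ls_of fun f hf hc => by
  have hm : (gE n).map (scE n 1 one_pos.ne') = mu gd := by
    rw [gE, Measure.map_map (MeasurableEquiv.measurable _) (MeasurableEquiv.measurable _)]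
    have : ⇑(scE n 1 one_pos.ne') ∘ ⇑(MeasurableEquiv.toLp 2 (Fin n → ℝ)) = id := by
      ext z i
      simp [scE_apply]
    rw [this, Measure.map_id]
    rfl
  have : IsProbabilityMeasure (mu (gd (n := n))) := isProb_gam
  have h2 : ContDiff ℝ 2 f := hf.of_le (by norm_cast)
  obtain ⟨R, -, hR⟩ := rsc_const_outside one_pos hc
  have k := lsi_slc one_pos (LCd_const (c := (√(2 * π))⁻¹ ^ n)
    (pow_pos (inv_pos.2 (sqrt_pos.2 (by positivity))) n)) (ν := mu gd) gsn_eq_gwt
    (contDiff_rsc h2) hR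
  rw [energy_mu one_pos hm h2 hc, ← hm, ← entropy_rsc one_pos f fun t => t ^ 2] at k
  rw [one_pow, one_mul, div_one] at k
  exact k

theorem gE_sub (hn : 1 ≤ n) {a : ℝ} (ha : 0 < a) (h : Subgaussian (gE n) a) : 8 / 3 ≤ a ^ 2 := by
  have h1 := (le_iSup_of_le (⟨EuclideanSpace.single (⟨0, hn⟩ : Fin n) (1 : ℝ), by simp⟩ :
    Metric.sphere (0 : Eu n) 1) le_rfl).trans h
  rw [gE, lintegral_map_equiv] at h1
  refine sq_exp_ge (μ := gsn n) (X := fun z => z ⟨0, hn⟩) (measurable_pi_apply _) (fun s => ?_)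
    (by positivity) (le_trans (le_of_eq (lintegral_congr fun z => ?_)) h1)
  · have k := integral_gam_exp (Pi.single (⟨0, hn⟩ : Fin n) s)
    simp only [Pi.single_apply, ite_mul, zero_mul, Finset.sum_ite_eq', Finset.mem_univ, if_true,
      ite_pow, ne_eq, OfNat.ofNat_ne_zero, not_false_eq_true, zero_pow] at k
    rw [← k, ofReal_integral_eq_lintegral_ofReal _ (Eventually.of_forall fun s => (exp_pos _).le)]
    by_contra h
    rw [integral_undef h] at k
    exact (exp_pos _).ne k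
  · simp [EuclideanSpace.inner_single_right]

theorem sharp (hn : 1 ≤ n) : ∃ γ : Measure (Eu n), Admissible γ ∧ CLS γ = 2 ∧
    sgConst γ ^ 2 = 8 / 3 := by
  have := (gE_adm (n := n)).prob
  have h1 : CLS (gE n) ≤ 2 := by
    rw [← ENNReal.ofReal_ofNat 2]
    exact sInf_le (LSI_of_ls zero_le_two gE_ls)
  have h2 : ENNReal.ofReal √(8 / 3) ≤ sgConst (gE n) :=
    le_iInf fun a => le_iInf fun ha => le_iInf fun h =>
      ENNReal.ofReal_le_ofReal (sqrt_le_iff.2 ⟨ha.le, gE_sub hn ha h⟩)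
  have h3 : 8 / 3 ≤ sgConst (gE n) ^ 2 := by
    refine le_trans (le_of_eq ?_) (pow_le_pow_left' h2 2)
    rw [← ENNReal.ofReal_pow (sqrt_nonneg _), sq_sqrt (by norm_num),
      ENNReal.ofReal_div_of_pos three_pos, ENNReal.ofReal_ofNat, ENNReal.ofReal_ofNat]
  have h4 := lower (gE_adm (n := n))
  have e : (3 / 4 : ℝ≥0∞) * (8 / 3) = 2 := by
    rw [← ENNReal.ofReal_ofNat 3, ← ENNReal.ofReal_ofNat 4, ← ENNReal.ofReal_ofNat 8,
      ← ENNReal.ofReal_ofNat 2, ← ENNReal.ofReal_div_of_pos four_pos,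
      ← ENNReal.ofReal_div_of_pos three_pos, ← ENNReal.ofReal_mul (by norm_num)]
    norm_num
  refine ⟨gE n, gE_adm, le_antisymm h1 (e.ge.trans (le_trans (by gcongr) h4)),
    le_antisymm ?_ h3⟩
  rw [← ENNReal.mul_le_mul_iff_right (a := 3 / 4) (by simp) (by finiteness), e]
  exact h4.trans h1

end Vale.Agent.N245
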