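import Mathlib

/-!
# P245: the Herbst argument, from smooth compactly supported test functions to all Lipschitz
functions
-/

namespace Vale.Agent.N245

open MeasureTheory ProbabilityTheory Real Filter Topology Set
open scoped ContDiff ENNReal NNReal Convolution

variable {n : ℕ}

/-- the log-Sobolev inequality with constant `D`. -/
def LS (μ : Measure (EuclideanSpace ℝ (Fin n))) (D : ℝ) : Prop :=
  ∀ f : EuclideanSpace ℝ (Fin n) → ℝ, ContDiff ℝ ∞ f → HasCompactSupport f →
    ∫ x, f x ^ 2 * log (f x ^ 2) ∂μ - (∫ x, f x ^ 2 ∂μ) * log (∫ x, f x ^ 2 ∂μ) ≤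
      D * ∫ x, ‖fderiv ℝ f x‖ ^ 2 ∂μ

variable {μ : Measure (EuclideanSpace ℝ (Fin n))} [IsProbabilityMeasure μ] {D : ℝ}

theorem int_bdd {u : EuclideanSpace ℝ (Fin n) → ℝ} (hu : Continuous u) {B : ℝ}
    (hB : ∀ x, |u x| ≤ B) : Integrable u μ :=
  Integrable.of_bound hu.aestronglyMeasurable B (Eventually.of_forall hB)

theorem lim_comp {u : ℕ → EuclideanSpace ℝ (Fin n) → ℝ} {v : EuclideanSpace ℝ (Fin n) → ℝ}
    (hu : ∀ k, Continuous (u k)) {B : ℝ} (hB : ∀ k x, |u k x| ≤ B)
    (hl : ∀ x, Tendsto (fun k => u k x) atTop (𝓝 (v x))) {φ : ℝ → ℝ} (hφ : Continuous φ) :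
    Tendsto (fun k => ∫ x, φ (u k x) ∂μ) atTop (𝓝 (∫ x, φ (v x) ∂μ)) := by
  obtain ⟨M, hM⟩ := (isCompact_Icc (a := -B) (b := B)).exists_bound_of_continuousOn
    hφ.continuousOn
  exact tendsto_integral_of_dominated_convergence (fun _ => M)
    (fun k => (hφ.comp (hu k)).aestronglyMeasurable) (integrable_const M)
    (fun k => Eventually.of_forall fun x => hM _ (abs_le.1 (hB k x)))
    (Eventually.of_forall fun x => (hφ.tendsto _).comp (hl x))

/-- the inequality for bounded smooth functions whose gradient is bounded by `L |g|`. -/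
theorem LS.bdd (h : LS μ D) (hD : 0 ≤ D) {g : EuclideanSpace ℝ (Fin n) → ℝ}
    (hg : ContDiff ℝ ∞ g) {B L : ℝ} (hB : ∀ x, |g x| ≤ B)
    (hL : ∀ x, ‖fderiv ℝ g x‖ ≤ L * |g x|) (hL0 : 0 ≤ L) :
    ∫ x, g x ^ 2 * log (g x ^ 2) ∂μ - (∫ x, g x ^ 2 ∂μ) * log (∫ x, g x ^ 2 ∂μ) ≤
      D * (L ^ 2 * ∫ x, g x ^ 2 ∂μ) := by
  let χ : ContDiffBump (0 : EuclideanSpace ℝ (Fin n)) := ⟨1, 2, one_pos, one_lt_two⟩
  have hχ : ContDiff ℝ ∞ χ := χ.contDiff
  obtain ⟨K, hK⟩ := (χ.hasCompactSupport.fderiv ℝ).exists_bound_of_continuous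
    (hχ.continuous_fderiv (by simp))
  have hK0 : 0 ≤ K := (norm_nonneg _).trans (hK 0)
  set c : ℕ → ℝ := fun k => 1 / ((k : ℝ) + 1) with hc
  have hc0 : ∀ k, 0 < c k := fun k => Nat.one_div_pos_of_nat
  have hcl : Tendsto c atTop (𝓝 0) := tendsto_one_div_add_atTop_nhds_zero_nat
  set f : ℕ → EuclideanSpace ℝ (Fin n) → ℝ := fun k x => χ (c k • x) * g x with hf
  have hχk : ∀ k, ContDiff ℝ ∞ fun x : EuclideanSpace ℝ (Fin n) => χ (c k • x) := fun k =>
    hχ.comp (contDiff_const_smul _)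
  have hfs : ∀ k, ContDiff ℝ ∞ (f k) := fun k => (hχk k).mul hg
  have hfc : ∀ k, HasCompactSupport (f k) := fun k =>
    (χ.hasCompactSupport.comp_homeomorph (Homeomorph.smulOfNeZero (c k) (hc0 k).ne')).mul_right
  have hfB : ∀ k x, |f k x| ≤ B := fun k x => by
    rw [hf, abs_mul, abs_of_nonneg χ.nonneg]
    exact (mul_le_of_le_one_left (abs_nonneg _) χ.le_one).trans (hB x)
  have hfl : ∀ x, Tendsto (fun k => f k x) atTop (𝓝 (g x)) := by
    intro x
    have h1 : Tendsto (fun k => c k • x) atTop (𝓝 0) := by simpa using hcl.smul_const x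
    have h2 := (χ.continuous.tendsto 0).comp h1
    rw [χ.one_of_mem_closedBall (Metric.mem_closedBall_self zero_le_one)] at h2
    simpa using h2.mul_const (g x)
  have hd : ∀ k x, ‖fderiv ℝ (f k) x‖ ≤ (L + c k * K) * |g x| := by
    intro k x
    have h1 : HasFDerivAt (fun x : EuclideanSpace ℝ (Fin n) => χ (c k • x))
        ((fderiv ℝ χ (c k • x)).comp (c k • ContinuousLinearMap.id ℝ _)) x :=
      (hχ.differentiable (by simp) _).hasFDerivAt.comp x ((hasFDerivAt_id x).const_smul (c k))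
    have h2 := (h1.mul (hg.differentiable (by simp) x).hasFDerivAt).fderiv
    have h3 : ‖(fderiv ℝ χ (c k • x)).comp (c k • ContinuousLinearMap.id ℝ _)‖ ≤ K * c k := by
      refine (ContinuousLinearMap.opNorm_comp_le _ _).trans (mul_le_mul (hK _) ?_ (norm_nonneg _) hK0)
      rw [norm_smul, Real.norm_of_nonneg (hc0 k).le]
      exact mul_le_of_le_one_right (hc0 k).le ContinuousLinearMap.norm_id_le
    change ‖fderiv ℝ ((fun x => χ (c k • x)) * g) x‖ ≤ _
    rw [h2]
    refine (norm_add_le _ _).trans ?_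
    rw [norm_smul, norm_smul, Real.norm_of_nonneg χ.nonneg, Real.norm_eq_abs]
    have h4 := mul_le_of_le_one_left (norm_nonneg (fderiv ℝ g x)) (χ.le_one (x := c k • x))
    have h5 := mul_le_mul_of_nonneg_left h3 (abs_nonneg (g x))
    nlinarith [hL x]
  have hg2 : Integrable (fun x => g x ^ 2) μ := int_bdd (hg.continuous.pow 2) (B := B ^ 2)
    fun x => by rw [abs_pow]; exact pow_le_pow_left₀ (abs_nonneg _) (hB x) 2
  have l1 := lim_comp (μ := μ) (fun k => (hfs k).continuous) hfB hfl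
    (φ := fun s => s ^ 2 * log (s ^ 2)) (continuous_mul_log.comp (continuous_pow 2))
  have l2 := lim_comp (μ := μ) (fun k => (hfs k).continuous) hfB hfl
    (φ := fun s => s ^ 2) (continuous_pow 2)
  have l3 : Tendsto (fun k => D * ((L + c k * K) ^ 2 * ∫ x, g x ^ 2 ∂μ)) atTop
      (𝓝 (D * ((L + 0 * K) ^ 2 * ∫ x, g x ^ 2 ∂μ))) :=
    ((((hcl.mul_const K).const_add L).pow 2).mul_const _).const_mul D
  rw [zero_mul, add_zero] at l3
  refine le_of_tendsto_of_tendsto' (l1.sub ((continuous_mul_log.tendsto _).comp l2)) l3 fun k => ?_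
  refine (h _ (hfs k) (hfc k)).trans (mul_le_mul_of_nonneg_left ?_ hD)
  rw [← integral_const_mul]
  refine integral_mono_of_nonneg (Eventually.of_forall fun x => sq_nonneg _) (hg2.const_mul _)
    (Eventually.of_forall fun x => ?_)
  have h6 := pow_le_pow_left₀ (norm_nonneg _) (hd k x) 2
  rwa [mul_pow, sq_abs] at h6

/-- the differential inequality. -/
theorem herbst_ode {Ω : Type*} [MeasurableSpace Ω] {ν : Measure Ω} [IsProbabilityMeasure ν]
    {F : Ω → ℝ} (hi : ∀ t, Integrable (fun x => exp (t * F x)) ν) {c : ℝ}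
    (hE : ∀ t, 0 < t → t * ∫ x, F x * exp (t * F x) ∂ν - mgf F ν t * log (mgf F ν t) ≤
      c * t ^ 2 * mgf F ν t) {t : ℝ} (ht : 0 < t) :
    cgf F ν t ≤ t * ∫ x, F x ∂ν + c * t ^ 2 := by
  have hs : ∀ s, s ∈ interior (integrableExpSet F ν) := by
    have : integrableExpSet F ν = univ := eq_univ_of_forall hi
    simp [this]
  have hd : ∀ s, HasDerivAt (cgf F ν) ((∫ x, F x * exp (s * F x) ∂ν) / mgf F ν s) s := fun s => by
    rw [← deriv_cgf (hs s)]
    exact (analyticAt_cgf (hs s)).differentiableAt.hasDerivAt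
  have hd2 : ∀ s, 0 < s → HasDerivAt (fun s => cgf F ν s / s - c * s)
      ((((∫ x, F x * exp (s * F x) ∂ν) / mgf F ν s) * s - cgf F ν s * 1) / s ^ 2 - c * 1) s :=
    fun s hs => ((hd s).div (hasDerivAt_id s) hs.ne').sub ((hasDerivAt_id s).const_mul c)
  have hanti : AntitoneOn (fun s => cgf F ν s / s - c * s) (Ioi 0) := by
    refine antitoneOn_of_deriv_nonpos (convex_Ioi 0)
      (fun s hs => (hd2 s hs).continuousAt.continuousWithinAt) ?_ ?_
    · rw [interior_Ioi]
      exact fun s hs => (hd2 s hs).differentiableAt.differentiableWithinAt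
    · rw [interior_Ioi]
      intro s hs
      have hs0 : 0 < s := hs
      have hm : 0 < mgf F ν s := mgf_pos (hi s)
      rw [(hd2 s hs).deriv, mul_one, mul_one, sub_nonpos, div_le_iff₀ (by positivity),
        div_mul_eq_mul_div, sub_le_iff_le_add, div_le_iff₀ hm, cgf]
      linarith [hE s hs0]
  have hlim : Tendsto (fun s => cgf F ν s / s - c * s) (𝓝[>] 0) (𝓝 (∫ x, F x ∂ν - c * 0)) := by
    refine Tendsto.sub ?_ (((continuous_const.mul continuous_id).tendsto 0).mono_left
      nhdsWithin_le_nhds)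
    have h1 := (hasDerivAt_iff_tendsto_slope_zero.1 (hd 0)).mono_left
      (nhdsGT_le_nhdsNE (0 : ℝ))
    simp only [zero_mul, exp_zero, mul_one, mgf_zero, div_one, zero_add, cgf_zero, sub_zero,
      smul_eq_mul] at h1
    exact h1.congr fun s => by rw [div_eq_inv_mul]
  have h2 : cgf F ν t / t - c * t ≤ ∫ x, F x ∂ν - c * 0 := by
    refine ge_of_tendsto hlim ?_
    filter_upwards [Ioo_mem_nhdsGT ht] with s hs
    exact hanti hs.1 ht hs.2.le
  rw [mul_zero, sub_zero, sub_le_iff_le_add, div_le_iff₀ ht] at h2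
  linarith

theorem int_exp {F : EuclideanSpace ℝ (Fin n) → ℝ} (hF : Continuous F) {M : ℝ}
    (hM : ∀ x, |F x| ≤ M) (t : ℝ) : Integrable (fun x => exp (t * F x)) μ :=
  int_bdd (by fun_prop) (B := exp (|t| * M)) fun x => by
    rw [abs_of_pos (exp_pos _)]
    refine exp_le_exp.2 ((le_abs_self _).trans ?_)
    rw [abs_mul]
    exact mul_le_mul_of_nonneg_left (hM x) (abs_nonneg t)

theorem LS.smooth (h : LS μ D) (hD : 0 ≤ D) {F : EuclideanSpace ℝ (Fin n) → ℝ}
    (hF : ContDiff ℝ ∞ F) (hL : LipschitzWith 1 F) {M : ℝ} (hM : ∀ x, |F x| ≤ M) {t : ℝ}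
    (ht : 0 < t) : mgf F μ t ≤ exp (t * ∫ x, F x ∂μ + D / 4 * t ^ 2) := by
  have hi := int_exp (μ := μ) hF.continuous hM
  rw [← exp_cgf (hi t)]
  refine exp_le_exp.2 (herbst_ode hi (fun s hs => ?_) ht)
  have h1 := h.bdd hD (g := fun x => exp (s / 2 * F x)) (contDiff_const.mul hF).exp
    (B := exp (s / 2 * M)) (L := s / 2) (fun x => by
      rw [abs_of_pos (exp_pos _)]
      exact exp_le_exp.2 (mul_le_mul_of_nonneg_left ((le_abs_self _).trans (hM x))
        (by positivity))) (fun x => by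
      have h2 := (((hF.differentiable (by simp) x).hasFDerivAt.const_mul (s / 2)).exp).fderiv
      have h3 : ‖fderiv ℝ F x‖ ≤ 1 := by simpa using norm_fderiv_le_of_lipschitz ℝ hL
      rw [h2, norm_smul, norm_smul, Real.norm_eq_abs, Real.norm_of_nonneg (by positivity),
        mul_comm]
      exact mul_le_mul_of_nonneg_right (mul_le_of_le_one_right (by positivity) h3)
        (abs_nonneg _)) (by positivity)
  have e : ∀ x, exp (s / 2 * F x) ^ 2 = exp (s * F x) := fun x => by
    rw [← exp_nat_mul]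
    congr 1
    push_cast
    ring
  simp only [e, log_exp] at h1
  rw [← integral_const_mul]
  have e2 : ∫ x, s * (F x * exp (s * F x)) ∂μ = ∫ x, exp (s * F x) * (s * F x) ∂μ :=
    integral_congr_ae (Eventually.of_forall fun x => by ring)
  rw [e2, mgf]
  refine h1.trans (le_of_eq ?_)
  ring

theorem mollify {F : EuclideanSpace ℝ (Fin n) → ℝ} (hL : LipschitzWith 1 F) {ε : ℝ} (hε : 0 < ε) :
    ∃ G : EuclideanSpace ℝ (Fin n) → ℝ, ContDiff ℝ ∞ G ∧ LipschitzWith 1 G ∧
      ∀ x, |G x - F x| ≤ ε := by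
  let φ : ContDiffBump (0 : EuclideanSpace ℝ (Fin n)) := ⟨ε / 2, ε, half_pos hε, half_lt_self hε⟩
  have hF := hL.continuous
  refine ⟨φ.normed volume ⋆[ContinuousLinearMap.lsmul ℝ ℝ, volume] F,
    φ.hasCompactSupport_normed.contDiff_convolution_left _ φ.contDiff_normed
      hF.locallyIntegrable, LipschitzWith.of_dist_le_mul fun x y => ?_, fun x => ?_⟩
  · have hi : ∀ z, Integrable (fun t => φ.normed volume t • F (z - t)) volume := fun z =>
      (φ.continuous_normed.smul (hF.comp (continuous_const.sub continuous_id))).integrable_of_hasCompactSupport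
        φ.hasCompactSupport_normed.smul_right
    rw [convolution_lsmul, convolution_lsmul, Real.dist_eq, ← integral_sub (hi x) (hi y),
      NNReal.coe_one, one_mul]
    refine (abs_integral_le_integral_abs).trans ?_
    have h1 : ∫ t, φ.normed volume t * dist x y = dist x y := by
      rw [integral_mul_const, φ.integral_normed, one_mul]
    rw [← h1]
    refine integral_mono ((hi x).sub (hi y)).abs (φ.integrable_normed.mul_const _) fun t => ?_
    simp only [smul_eq_mul]
    rw [← mul_sub, abs_mul, abs_of_nonneg (φ.nonneg_normed t)]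
    refine mul_le_mul_of_nonneg_left ?_ (φ.nonneg_normed t)
    have h2 := hL.dist_le_mul (x - t) (y - t)
    rwa [NNReal.coe_one, one_mul, dist_sub_right, Real.dist_eq] at h2
  · rw [← Real.dist_eq]
    refine φ.dist_normed_convolution_le hF.aestronglyMeasurable fun y hy => ?_
    have h2 := hL.dist_le_mul y x
    rw [NNReal.coe_one, one_mul] at h2
    exact h2.trans (le_of_lt hy)

theorem LS.lip_bdd (h : LS μ D) (hD : 0 ≤ D) {F : EuclideanSpace ℝ (Fin n) → ℝ}
    (hL : LipschitzWith 1 F) {M : ℝ} (hM : ∀ x, |F x| ≤ M) {t : ℝ} (ht : 0 < t) :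
    mgf F μ t ≤ exp (t * ∫ x, F x ∂μ + D / 4 * t ^ 2) := by
  have key : ∀ ε, 0 < ε → mgf F μ t ≤ exp (t * ∫ x, F x ∂μ + D / 4 * t ^ 2 + 2 * t * ε) := by
    intro ε hε
    obtain ⟨G, h1, h2, h3⟩ := mollify hL hε
    have hG : ∀ x, |G x| ≤ M + ε := fun x => by
      have := abs_le.1 (h3 x)
      have := abs_le.1 (hM x)
      exact abs_le.2 ⟨by linarith, by linarith⟩
    have h4 := h.smooth hD h1 h2 hG ht
    have h5 : ∫ x, G x ∂μ ≤ ∫ x, F x ∂μ + ε := by
      have h6 : ∫ x, G x ∂μ ≤ ∫ x, F x + ε ∂μ := integral_mono (int_bdd h1.continuous hG)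
        ((int_bdd hL.continuous hM).add (integrable_const ε)) fun x => by
          have := abs_le.1 (h3 x)
          change G x ≤ F x + ε
          linarith
      rwa [integral_add (int_bdd hL.continuous hM) (integrable_const ε), integral_const,
        probReal_univ, one_smul] at h6
    have h7 : mgf F μ t ≤ exp (t * ε) * mgf G μ t := by
      rw [mgf, mgf, ← integral_const_mul]
      refine integral_mono (int_exp hL.continuous hM t)
        ((int_exp h1.continuous hG t).const_mul _) fun x => ?_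
      have := abs_le.1 (h3 x)
      change exp _ ≤ exp _ * exp _
      rw [← exp_add]
      exact exp_le_exp.2 (by nlinarith)
    refine h7.trans ((mul_le_mul_of_nonneg_left h4 (exp_pos _).le).trans ?_)
    rw [← exp_add]
    exact exp_le_exp.2 (by nlinarith)
  have hl : Tendsto (fun ε => exp (t * ∫ x, F x ∂μ + D / 4 * t ^ 2 + 2 * t * ε)) (𝓝[>] 0)
      (𝓝 (exp (t * ∫ x, F x ∂μ + D / 4 * t ^ 2 + 2 * t * 0))) :=
    (Continuous.tendsto (by fun_prop) 0).mono_left nhdsWithin_le_nhds
  rw [mul_zero, add_zero] at hl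
  exact ge_of_tendsto hl (eventually_nhdsWithin_of_forall key)

theorem LS.lip_pos (h : LS μ D) (hD : 0 ≤ D) {F : EuclideanSpace ℝ (Fin n) → ℝ}
    (hL : LipschitzWith 1 F) (hi : Integrable F μ) {t : ℝ} (ht : 0 < t) :
    ∫⁻ x, ENNReal.ofReal (exp (t * F x)) ∂μ ≤
      ENNReal.ofReal (exp (t * ∫ x, F x ∂μ + D / 4 * t ^ 2)) := by
  set T : ℕ → EuclideanSpace ℝ (Fin n) → ℝ := fun k x => max (min (F x) k) (-k) with hT
  have hTL : ∀ k, LipschitzWith 1 (T k) := fun k => (hL.min_const _).max_const _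
  have hk0 : ∀ k : ℕ, (0 : ℝ) ≤ k := Nat.cast_nonneg
  have hTM : ∀ k x, |T k x| ≤ k := fun k x =>
    abs_le.2 ⟨le_max_right _ _, max_le (min_le_right _ _) (by linarith [hk0 k])⟩
  have hTF : ∀ k x, |T k x| ≤ |F x| := fun k x =>
    abs_le.2 ⟨le_max_of_le_left (le_min (neg_abs_le _) (by linarith [hk0 k, abs_nonneg (F x)])),
      max_le ((min_le_left _ _).trans (le_abs_self _)) (by linarith [hk0 k, abs_nonneg (F x)])⟩
  have hTl : ∀ x, Tendsto (fun k => T k x) atTop (𝓝 (F x)) := by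
    intro x
    refine tendsto_const_nhds.congr' ?_
    filter_upwards [tendsto_natCast_atTop_atTop.eventually_ge_atTop |F x|] with k hk
    have := abs_le.1 hk
    rw [hT]
    simp only [min_eq_left this.2, max_eq_left this.1]
  have l1 : Tendsto (fun k => ∫ x, T k x ∂μ) atTop (𝓝 (∫ x, F x ∂μ)) :=
    tendsto_integral_of_dominated_convergence (fun x => |F x|)
      (fun k => (hTL k).continuous.aestronglyMeasurable) hi.abs
      (fun k => Eventually.of_forall (hTF k)) (Eventually.of_forall hTl)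
  have l2 : Tendsto (fun k => ENNReal.ofReal (exp (t * ∫ x, T k x ∂μ + D / 4 * t ^ 2))) atTop
      (𝓝 (ENNReal.ofReal (exp (t * ∫ x, F x ∂μ + D / 4 * t ^ 2)))) :=
    ENNReal.tendsto_ofReal ((continuous_exp.tendsto _).comp ((l1.const_mul t).add_const _))
  have l3 : ∀ x, ENNReal.ofReal (exp (t * F x)) =
      liminf (fun k => ENNReal.ofReal (exp (t * T k x))) atTop := fun x =>
    (ENNReal.tendsto_ofReal ((continuous_exp.tendsto _).comp
      ((hTl x).const_mul t))).liminf_eq.symm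
  simp_rw [l3]
  refine (lintegral_liminf_le fun k => ?_).trans ?_
  · have := (hTL k).continuous
    fun_prop
  · rw [← l2.liminf_eq]
    refine liminf_le_liminf (Eventually.of_forall fun k => ?_)
    rw [← ofReal_integral_eq_lintegral_ofReal (int_exp (hTL k).continuous (hTM k) t)
      (Eventually.of_forall fun x => (exp_pos _).le)]
    exact ENNReal.ofReal_le_ofReal (h.lip_bdd hD (hTL k) (hTM k) ht)

/-- **Herbst**: every `1`-Lipschitz function is subgaussian. -/
theorem LS.subgaussian (h : LS μ D) (hD : 0 ≤ D) {F : EuclideanSpace ℝ (Fin n) → ℝ}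
    (hL : LipschitzWith 1 F) (hi : Integrable F μ) :
    HasSubgaussianMGF (fun x => F x - ∫ y, F y ∂μ) (D / 2).toNNReal μ := by
  have key : ∀ t, ∫⁻ x, ENNReal.ofReal (exp (t * F x)) ∂μ ≤
      ENNReal.ofReal (exp (t * ∫ x, F x ∂μ + D / 4 * t ^ 2)) := by
    intro t
    rcases lt_trichotomy t 0 with ht | rfl | ht
    · have h1 := h.lip_pos hD (F := fun x => -F x) hL.neg hi.neg (neg_pos.2 ht)
      simpa only [integral_neg, neg_mul_neg, neg_sq] using h1
    · simp
    · exact h.lip_pos hD hL hi ht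
  have hc := hL.continuous
  have hint : ∀ t, Integrable (fun x => exp (t * F x)) μ := fun t =>
    ⟨Continuous.aestronglyMeasurable (by fun_prop),
      (hasFiniteIntegral_iff_ofReal (Eventually.of_forall fun x => (exp_pos _).le)).2
        ((key t).trans_lt ENNReal.ofReal_lt_top)⟩
  have e : ∀ t x, exp (t * (F x - ∫ y, F y ∂μ)) = exp (-(t * ∫ y, F y ∂μ)) * exp (t * F x) :=
    fun t x => by rw [← exp_add]; congr 1; ring
  refine ⟨fun t => ?_, fun t => ?_⟩
  · simp_rw [e]
    exact (hint t).const_mul _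
  · have h1 := key t
    rw [← ofReal_integral_eq_lintegral_ofReal (hint t)
      (Eventually.of_forall fun x => (exp_pos _).le), ENNReal.ofReal_le_ofReal_iff (exp_pos _).le]
      at h1
    rw [mgf]
    simp_rw [e]
    rw [integral_const_mul, Real.coe_toNNReal _ (by positivity)]
    refine (mul_le_mul_of_nonneg_left h1 (exp_pos _).le).trans (le_of_eq ?_)
    rw [← exp_add]
    congr 1
    ring

end Vale.Agent.N245
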