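import Vale.Agent.N245.Gauss
import Vale.Agent.P245W48.Main

/-!
# P245: assembly
-/

namespace Vale.Agent.N245

open MeasureTheory InformationTheory Vale.Agent.P245W
open scoped ENNReal ContDiff

theorem full : ∃ C : ℝ, 0 < C ∧ ∀ n : ℕ, 1 ≤ n →
    ((∀ μ : Measure (Eu n), Admissible μ → ∀ a : ℝ, 0 < a → Subgaussian μ a →
      ∀ f : Eu n → ℝ, ContDiff ℝ ∞ f → HasCompactSupport f →
        Ent μ (fun x => f x ^ 2) ≤ C * a ^ 2 * ∫ x, ‖gradient f x‖ ^ 2 ∂μ) ∧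
      3 / 4 ≤ K n ∧ K n ≤ ENNReal.ofReal C) ∧
    ((∀ μ : Measure (Eu n), Admissible μ →
      3 / 4 * sgConst μ ^ 2 ≤ CLS μ ∧ CLS μ ≤ ENNReal.ofReal C * sgConst μ ^ 2) ∧
      ∃ γ : Measure (Eu n), Admissible γ ∧ CLS γ = 2 ∧ sgConst γ ^ 2 = 8 / 3) ∧
    (∀ μ : Measure (Eu n), Admissible μ → ∀ S : Eu n ≃L[ℝ] Eu n,
      (∀ θ, ‖S θ‖ = 1 → ∫⁻ x, ENNReal.ofReal (Real.exp (inner ℝ x θ ^ 2)) ∂μ ≤ 2) →
      ∀ f : Eu n → ℝ, ContDiff ℝ ∞ f → HasCompactSupport f →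
        Ent μ (fun x => f x ^ 2) ≤ C * ∫ x, ‖S (gradient f x)‖ ^ 2 ∂μ) ∧
    ∀ μ : Measure (Eu n), Admissible μ → ∀ a : ℝ, 0 < a → Subgaussian μ a →
      (∀ F : Eu n → ℝ, LipschitzWith 1 F → Integrable F μ ∧
        ∫⁻ x, ENNReal.ofReal (Real.exp ((F x - ∫ y, F y ∂μ) ^ 2 / (4 / 3 * (C * a ^ 2)))) ∂μ ≤ 2 ∧
        (∀ t : ℝ, ∫⁻ x, ENNReal.ofReal (Real.exp (t * (F x - ∫ y, F y ∂μ))) ∂μ ≤
          ENNReal.ofReal (Real.exp (C * a ^ 2 * t ^ 2 / 4))) ∧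
        (∀ r, 0 ≤ r → μ.real {x | r ≤ F x - ∫ y, F y ∂μ} ≤ Real.exp (-r ^ 2 / (C * a ^ 2))) ∧
        ∀ ν : Measure (Eu n), IsProbabilityMeasure ν → Integrable F ν →
          ENNReal.ofReal ((∫ x, F x ∂ν - ∫ x, F x ∂μ) ^ 2) ≤
            ENNReal.ofReal (C * a ^ 2) * klDiv ν μ) ∧
      ∀ (A B : Set (Eu n)) (d : ℝ), 0 ≤ d → (∀ x ∈ A, ∀ y ∈ B, d ≤ dist x y) →
        μ.real A * μ.real B ≤ Real.exp (-d ^ 2 / (2 * (C * a ^ 2))) := by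
  obtain ⟨C, hC, h⟩ := main
  refine ⟨C, hC, fun n hn => ?_⟩
  obtain ⟨h1, h2, h3⟩ := h n hn
  have k := fun μ hμ a ha hs f hf hc => ((h1 μ hμ a ha hs).1 f hf hc).2.2.2
  refine ⟨⟨k, K_ge h2, h3⟩, ⟨fun μ hμ => ⟨lower hμ, upper hC h3 hμ⟩, sharp hn⟩,
    fun μ hμ S hS f hf hc => aniso (fun μ hμ => k μ hμ 1 one_pos) hμ S hS hf hc,
    fun μ hμ a ha hs => ?_⟩
  have := hμ.prob
  exact (ls_of (k μ hμ a ha hs)).all (by positivity) hμ.integrable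

end Vale.Agent.N245
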