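import Vale.Agent.N245.Conc
import Vale.Agent.N245.Aniso

/-!
# P245: the log-Sobolev constant is bounded below by the subgaussian constant; assembly
-/

namespace Vale.Agent.N245

open MeasureTheory ProbabilityTheory InformationTheory Vale.Agent.P245W Set
open scoped ContDiff ENNReal

variable {n : ℕ}

theorem ls_of {μ : Measure (Eu n)} {D : ℝ} (h : ∀ f : Eu n → ℝ, ContDiff ℝ ∞ f →
    HasCompactSupport f → Ent μ (fun x => f x ^ 2) ≤ D * ∫ x, ‖gradient f x‖ ^ 2 ∂μ) :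
    LS μ D := fun f hf hc => by
  have := h f hf hc
  simp only [gradient, LinearIsometryEquiv.norm_map] at this
  exact this

theorem lint_grad (μ : Measure (Eu n)) [IsProbabilityMeasure μ] {f : Eu n → ℝ}
    (hf : ContDiff ℝ ∞ f) (hc : HasCompactSupport f) :
    ∫⁻ x, ‖gradient f x‖ₑ ^ 2 ∂μ = ENNReal.ofReal (∫ x, ‖fderiv ℝ f x‖ ^ 2 ∂μ) := by
  have c3 : Continuous fun x => ‖fderiv ℝ f x‖ ^ 2 := (hf.continuous_fderiv (by simp)).norm.pow 2
  have s3 : HasCompactSupport fun x => ‖fderiv ℝ f x‖ ^ 2 :=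
    (hc.fderiv ℝ).mono fun x hx h => hx (by simp only [h, norm_zero]; norm_num)
  rw [ofReal_integral_eq_lintegral_ofReal (c3.integrable_of_hasCompactSupport s3)
    (Filter.Eventually.of_forall fun x => sq_nonneg _)]
  refine lintegral_congr fun x => ?_
  rw [← ofReal_norm, ENNReal.ofReal_pow (norm_nonneg _), gradient, LinearIsometryEquiv.norm_map]

theorem ls_of_LSI {μ : Measure (Eu n)} [IsProbabilityMeasure μ] {D : ℝ} (hD : 0 ≤ D)
    (h : LSI μ (ENNReal.ofReal D)) : LS μ D := fun f hf hc => by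
  have := h f hf hc
  rw [lint_grad μ hf hc, ← ENNReal.ofReal_mul hD, ENNReal.ofReal_le_ofReal_iff
    (mul_nonneg hD (integral_nonneg fun x => sq_nonneg _))] at this
  exact this

theorem LSI_of_ls {μ : Measure (Eu n)} [IsProbabilityMeasure μ] {D : ℝ} (hD : 0 ≤ D)
    (h : LS μ D) : LSI μ (ENNReal.ofReal D) := fun f hf hc => by
  rw [lint_grad μ hf hc, ← ENNReal.ofReal_mul hD]
  exact ENNReal.ofReal_le_ofReal (h f hf hc)

theorem sub_of_ls {μ : Measure (Eu n)} (h : Admissible μ) {D : ℝ} (hD : 0 < D) (hl : LS μ D) :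
    Subgaussian μ √(4 / 3 * D) := by
  have := h.prob
  refine iSup_le fun θ => ?_
  have h1 : ‖θ.1‖ = 1 := mem_sphere_zero_iff_norm.1 θ.2
  have hL : LipschitzWith 1 fun x : Eu n => inner ℝ x θ.1 :=
    LipschitzWith.of_dist_le_mul fun x y => by
      rw [Real.dist_eq, ← inner_sub_left, dist_eq_norm, NNReal.coe_one, one_mul]
      exact (abs_real_inner_le_norm _ _).trans (by rw [h1, mul_one])
  have h0 : ∫ x, inner ℝ x θ.1 ∂μ = 0 := by
    simp_rw [fun x : Eu n => real_inner_comm θ.1 x]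
    rw [integral_inner (f := fun x => x) h.integrable, h.centered, inner_zero_right]
  have := ((hl.all hD h.integrable).1 _ hL).2.1
  simp only [h0, sub_zero] at this
  rwa [Real.sq_sqrt (by positivity)]

theorem lower {μ : Measure (Eu n)} (h : Admissible μ) : 3 / 4 * sgConst μ ^ 2 ≤ CLS μ := by
  have := h.prob
  refine le_sInf fun C hC => ENNReal.le_of_forall_pos_le_add fun ε hε hC' => ?_
  have hD : 0 < C.toReal + ε := add_pos_of_nonneg_of_pos ENNReal.toReal_nonneg hε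
  have e : ENNReal.ofReal (C.toReal + ε) = C + ε := by
    rw [ENNReal.ofReal_add ENNReal.toReal_nonneg ε.coe_nonneg, ENNReal.ofReal_toReal hC'.ne,
      ENNReal.ofReal_coe_nnreal]
  have hl : LSI μ (ENNReal.ofReal (C.toReal + ε)) := fun f hf hc =>
    (hC f hf hc).trans (by rw [e]; gcongr; exact le_self_add)
  have hs : sgConst μ ≤ ENNReal.ofReal √(4 / 3 * (C.toReal + ε)) :=
    iInf_le_of_le _ (iInf_le_of_le (Real.sqrt_pos.2 (by positivity))
      (iInf_le_of_le (sub_of_ls h hD (ls_of_LSI hD.le hl)) le_rfl))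
  calc 3 / 4 * sgConst μ ^ 2 ≤ 3 / 4 * ENNReal.ofReal √(4 / 3 * (C.toReal + ε)) ^ 2 := by gcongr
    _ = C + ε := by
      rw [← e, ← ENNReal.ofReal_pow (Real.sqrt_nonneg _), Real.sq_sqrt (by positivity),
        ← ENNReal.ofReal_ofNat 3, ← ENNReal.ofReal_ofNat 4, ← ENNReal.ofReal_div_of_pos four_pos,
        ← ENNReal.ofReal_mul (by positivity)]
      congr 1
      ring

theorem K_ge (h : 20⁻¹ ≤ K n) : 3 / 4 ≤ K n := by
  obtain ⟨μ, h⟩ := lt_iSup_iff.1 ((ENNReal.inv_pos.2 ENNReal.ofNat_ne_top).trans_le h)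
  obtain ⟨hμ, h⟩ := lt_iSup_iff.1 h
  obtain ⟨hs, h⟩ := lt_iSup_iff.1 h
  refine le_iSup_of_le μ (le_iSup_of_le hμ (le_iSup_of_le hs ?_))
  rw [ENNReal.le_div_iff_mul_le (Or.inr (ENNReal.div_pos_iff.1 h).1)
    (Or.inl (ENNReal.pow_ne_top hs.ne))]
  exact lower hμ

theorem upper {C : ℝ} (hC : 0 < C) (h : K n ≤ ENNReal.ofReal C) {μ : Measure (Eu n)}
    (hμ : Admissible μ) : CLS μ ≤ ENNReal.ofReal C * sgConst μ ^ 2 := by
  rcases eq_top_or_lt_top (sgConst μ) with ht | ht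
  · rw [ht, ENNReal.top_pow two_ne_zero, ENNReal.mul_top (ENNReal.ofReal_pos.2 hC).ne']
    exact le_top
  · rw [← ENNReal.div_le_iff_le_mul (Or.inr ENNReal.ofReal_ne_top)
      (Or.inl (ENNReal.pow_ne_top ht.ne))]
    refine le_trans ?_ h
    exact le_iSup_of_le μ (le_iSup_of_le hμ (le_iSup_of_le ht le_rfl))

end Vale.Agent.N245
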